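import Vale.Agent.Lib.P013.Jac

namespace Vale.Agent.Results.P013.FewSmallPrimes

open Vale.Agent.Lib.P013

/-- Jacobsthal's function for integers with few small prime factors.  `jac n` is `j(n)`.
(0) `jac n` is a genuine minimum.
(1) If `A` is a set of primes dividing `n` and the other primes `p ∣ n` satisfy `∑ 1/p ≤ 1/2`, then
`j(n) ≤ (∏_{p ∈ A} p) (6 (ω(n) - |A|) + 1)`.
(2) If moreover `∏_{p ∈ A} p ≤ ω(n)`, then `j(n) ≤ 7 ω(n)^2`.
(3) If `∑_{p ∣ n} 1/p ≤ 1/2`, then `j(n) ≤ 6 ω(n) + 1`. -/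
theorem result :
    (∀ n : ℕ, 0 < n → 0 < jac n ∧
      ∀ a : ℤ, ∃ x : ℤ, a ≤ x ∧ x < a + (jac n : ℤ) ∧ IsCoprime x (n : ℤ)) ∧
    (∀ (n : ℕ) (A : Finset ℕ), 0 < n → A ⊆ n.primeFactors →
      ∑ p ∈ n.primeFactors \ A, (1 : ℝ) / p ≤ 1 / 2 →
      jac n ≤ (∏ p ∈ A, p) * (6 * (n.primeFactors \ A).card + 1)) ∧
    (∀ (n : ℕ) (A : Finset ℕ), 0 < n → A ⊆ n.primeFactors →
      ∑ p ∈ n.primeFactors \ A, (1 : ℝ) / p ≤ 1 / 2 →
      ∏ p ∈ A, p ≤ n.primeFactors.card →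
      jac n ≤ 7 * n.primeFactors.card ^ 2) ∧
    (∀ n : ℕ, 0 < n → ∑ p ∈ n.primeFactors, (1 : ℝ) / p ≤ 1 / 2 →
      jac n ≤ 6 * n.primeFactors.card + 1) := by
  refine ⟨fun n hn => jac_spec n hn, fun n A hn hA hs => jac_le n hn A hA hs, ?_, ?_⟩
  · intro n A hn hA hs hprod
    have h := jac_le n hn A hA hs
    have hB : (n.primeFactors \ A).card ≤ n.primeFactors.card :=
      Finset.card_le_card Finset.sdiff_subset
    have hpos : 0 < ∏ p ∈ A, p :=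
      Finset.prod_pos fun p hp => (Nat.prime_of_mem_primeFactors (hA hp)).pos
    set k := n.primeFactors.card with hk
    have hk1 : 1 ≤ k := by omega
    calc jac n ≤ (∏ p ∈ A, p) * (6 * (n.primeFactors \ A).card + 1) := h
      _ ≤ k * (6 * k + 1) := Nat.mul_le_mul hprod (by omega)
      _ ≤ 7 * k ^ 2 := by nlinarith
  · intro n hn hs
    have h := jac_le n hn ∅ (Finset.empty_subset _) (by simpa using hs)
    simpa using h

end Vale.Agent.Results.P013.FewSmallPrimes
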